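import Vale.Agent.P354XA.Indl
import Vale.Agent.P354DT.LocOf
import Vale.Agent.P354XV.C1

/-!
Data for one step of local existence: the cut off data of the reference solution, and their
perturbation.
-/

set_option maxSynthPendingDepth 3

open scoped ContDiff Manifold
open Set Filter Topology

noncomputable section

namespace Vale.Agent.P354S0

open Vale.Agent.P354n (R4)
open Vale.Agent.P354I (X Dat pd ee)
open Vale.Agent.P354R (Met Pull chr)
open Vale.Agent.P354RC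
open Vale.Agent.P354XD (tb rp_tb)
open Vale.Agent.P354XE (Tw pt eT Bd)
open Vale.Agent.P354XV
open Vale.Agent.P354XA
open Vale.Agent.P354YI (Oj Jb Gd Cls)
open Vale.Agent.P354LC (Dif Adm eu)

theorem in0_congr {g : Tw} {d d' : Dat} {y : X} (e : d'.h y = d.h y ∧ d'.K y = d.K y)
    (h : In0 g d y) : In0 g d' y := by
  unfold In0 at h ⊢
  rwa [e.1, e.2]

/-- The constraints are local. -/
theorem cn_congr {d d' : Dat} {y : X} (h : ∀ᶠ z in 𝓝 y, d'.h z = d.h z ∧ d'.K z = d.K z)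
    (k : CnAt d y) : CnAt d' y := by
  have h1 : d'.h =ᶠ[𝓝 y] d.h := h.mono fun _ k => k.1
  have h2 : d'.K =ᶠ[𝓝 y] d.K := h.mono fun _ k => k.2
  have e : ∀ {F G : X → Matrix (Fin 3) (Fin 3) ℝ} {z : X}, F =ᶠ[𝓝 z] G → ∀ i a b,
      pd i (fun z => F z a b) z = pd i (fun z => G z a b) z := fun h i a b => by
    rw [pd, pd, EventuallyEq.fderiv_eq (h.mono fun w hw => by rw [hw])]
  have c : ∀ k i j, d'.chr k i j =ᶠ[𝓝 y] d.chr k i j := fun k i j =>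
    h1.eventually_nhds.mono fun z hz => by simp only [Dat.chr, e hz, EventuallyEq.eq_of_nhds hz]
  have t : d'.trK =ᶠ[𝓝 y] d.trK := h.mono fun z k => by simp only [Dat.trK, k.1, k.2]
  refine ⟨Eq.trans ?_ k.1, fun j => Eq.trans ?_ (k.2 j)⟩
  · simp only [Dat.scal, Dat.ric, Dat.sqK, pd, (c _ _ _).fderiv_eq, (c _ _ _).eq_of_nhds,
      h1.eq_of_nhds, h2.eq_of_nhds, t.eq_of_nhds]
  · rw [pd, pd, t.fderiv_eq]
    simp only [Dat.divK, e h2, (c _ _ _).eq_of_nhds, h1.eq_of_nhds, h2.eq_of_nhds]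

/-- The induced data are invariant under isometries which fix the slice. -/
theorem in0_pull {b : R4 → R4} {g' g : Tw} {W D : Set R4} {d : Dat} {y : X}
    (P : Pull b g' W g D) (hy : pt 0 y ∈ W) (e : ∀ q ∈ W, q.1 = 0 → b q = q)
    (o : 0 < (fderiv ℝ b (pt 0 y) eT).1) (I : In0 g d y) : In0 g' d y := by
  have s := fun q (hq : q ∈ W) (h0 : q.1 = 0) =>
    fd_slice P.open' hq h0 ((p_at P hq).differentiableAt (by simp)) e
  have r := rp_tb P.isOpen P.met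
  have m := P.maps hy
  have e0 := e _ hy rfl
  obtain ⟨n, n1, n2, n3⟩ := I
  obtain ⟨u, rfl⟩ := surj_of_inj (P.inj _ hy) n
  refine ⟨u, by rw [P.eq _ hy, e0]; exact n1, ?_, fun i k => ⟨?_, ?_, ?_⟩⟩
  · have z : u = u.1 • eT + (0, u.2) := by simp [eT]
    rw [z, map_add, map_smul, s _ hy rfl (0, u.2) rfl] at n2
    simp only [Prod.fst_add, Prod.smul_fst, smul_eq_mul, add_zero] at n2
    exact (pos_iff_pos_of_mul_pos n2).2 o
  · rw [P.eq _ hy, e0, s _ hy rfl _ rfl]; exact (n3 i k).1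
  · rw [P.eq _ hy, e0, s _ hy rfl _ rfl, s _ hy rfl _ rfl]; exact (n3 i k).2.1
  · have z : fderiv ℝ (fderiv ℝ b) (pt 0 y) (pt 0 (ee i)) (pt 0 (ee k)) = 0 := by
      have l : HasDerivAt (fun t : ℝ => pt 0 y + t • pt 0 (ee i)) (pt 0 (ee i)) 0 := by
        simpa using ((hasDerivAt_id (0 : ℝ)).smul_const (pt 0 (ee i))).const_add (pt 0 y)
      have k1 := ((at_df (at_fd (p_at P hy))).hasFDerivAt.comp_hasDerivAt_of_eq 0 l
        (by simp)).clm_apply (hasDerivAt_const 0 (pt 0 (ee k)))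
      rw [map_zero, add_zero] at k1
      refine k1.unique ((hasDerivAt_const 0 (pt 0 (ee k))).congr_of_eventuallyEq ?_)
      filter_upwards [l.continuousAt.eventually (P.open'.mem_nhds (by simpa using hy))] with t ht
      exact s _ ht (by simp [pt]) _ rfl
    rw [(rp_pb P r).chr hy, C1_pb P r hy, z, map_zero, zero_apply, add_zero,
      s _ hy rfl _ rfl, s _ hy rfl _ rfl, ← r.chr m, e0]
    exact (n3 i k).2.2

/-- The cut off data, with bounds of all orders. -/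
theorem data2 {K U : Set X} (hK : IsCompact K) (hU : IsOpen U) (hUK : closure U ⊆ interior K) :
    ∃ Dc : Tw → Dat, ∀ (m : ℕ) (B : ℝ), ∃ B', ∀ g D, Lv g D →
      (∀ y ∈ K, pt 0 y ∈ D ∧ Nice (m + 1) B g Prod.fst (pt 0 y)) →
      DB m B' (Dc g) ∧ ∀ y ∈ U, In0 g (Dc g) y ∧ CnAt (Dc g) y := by
  obtain ⟨χ0, c1, c0, c01⟩ := exists_contMDiffMap_one_nhds_of_subset_interior 𝓘(ℝ, X)
    isClosed_closure hUK (n := ⊤)
  obtain ⟨χ, sχ, c1, c0, c01⟩ : ∃ χ : X → ℝ, ContDiff ℝ ∞ χ ∧ (∀ y ∈ U, χ y = 1) ∧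
      (∀ y ∉ K, χ y = 0) ∧ ∀ y, χ y ∈ Icc (0 : ℝ) 1 :=
    ⟨χ0, χ0.contMDiff.contDiff, fun y hy => c1.self_of_nhdsSet _ (subset_closure hy), c0, c01⟩
  refine ⟨fun g => cut χ (dat g), fun m B => ?_⟩
  let J := {z : (Tw × Set R4) × X // (Lv z.1.1 z.1.2 ∧ ∀ y ∈ K, pt 0 y ∈ z.1.2 ∧
    Nice (m + 1) B z.1.1 Prod.fst (pt 0 y)) ∧ z.2 ∈ K}
  have o1 : Oj (m + 1) (fun j : J => pL j.1.2) (fun j => tb j.1.1.1) 1 :=
    oj_tb fun j => ⟨j.2.1.1.isOpen, j.2.1.1.met, (j.2.1.2 _ j.2.2).1, (j.2.1.2 _ j.2.2).2.bd⟩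
  obtain ⟨C, -, hC⟩ := o1.val
  have kc : ∀ j : J, tb j.1.1.1 (pL j.1.2) ∈ Kc B C := fun j => by
    obtain ⟨a, b⟩ := j.2.1.2 _ j.2.2
    have r := rp_tb j.2.1.1.isOpen j.2.1.1.met
    refine ⟨(hC j).trans_eq (mul_one _), r.symm _ a, fun v hv => ?_, b.tl.imp fun u hu => ?_⟩
    · rw [← pL_eq, ← r.eq _ a]
      exact b.sp v (by rw [fderiv_fst]; exact hv)
    · rw [← pL_eq, ← r.eq _ a]
      exact hu
  have oχ : Oj m (fun j : J => j.1.2) (fun _ => χ) 1 :=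
    .fix hK (fun _ _ => sχ.contDiffAt) fun j => j.2.2
  have o2 : ∀ a b, Oj m (fun j : J => j.1.2) (fun j z => (cut χ (dat j.1.1.1)).h z a b) 1 ∧
      Oj m (fun j : J => j.1.2) (fun j z => (cut χ (dat j.1.1.1)).K z a b) 1 := fun a b =>
    ⟨(oχ.smull (oj_dat o1 kc a b).1).add (((Oj.cst 1).sub oχ).smull (.cst _)),
      oχ.smull (oj_dat o1 kc a b).2⟩
  choose C1 _ h1 using fun a b => (o2 a b).1.bd
  choose C2 _ h2 using fun a b => (o2 a b).2.bd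
  obtain ⟨R, hR⟩ := hK.isBounded.subset_ball 0
  obtain ⟨B', b1, b2, b3, b4⟩ : ∃ B', 1 ≤ B' ∧ R ≤ B' ∧ 3 * B ≤ B' ∧
      ∀ a b, C1 a b ≤ B' ∧ C2 a b ≤ B' := by
    obtain ⟨E, hE⟩ := (finite_range fun z : Fin 3 × Fin 3 => max (C1 z.1 z.2) (C2 z.1 z.2)).bddAbove
    refine ⟨max (max 1 R) (max (3 * B) E), by simp, by simp, by simp, fun a b => ?_⟩
    exact max_le_iff.1 ((hE ⟨(a, b), rfl⟩).trans (le_max_of_le_right (le_max_right _ _)))
  refine ⟨B', fun g D l H => ?_⟩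
  have r := rp_tb l.isOpen l.met
  let j : ∀ y ∈ K, J := fun y hy => ⟨((g, D), y), ⟨l, H⟩, hy⟩
  have fl : ∀ y ∉ K, (cut χ (dat g)).h y = 1 ∧ (cut χ (dat g)).K y = 0 := fun y hy => by
    simp [cut, c0 y hy]
  have ev : ∀ y ∉ K, ∀ a b, (fun z => (cut χ (dat g)).h z a b) =ᶠ[𝓝 y]
      (fun _ => (1 : Matrix (Fin 3) (Fin 3) ℝ) a b) ∧
      (fun z => (cut χ (dat g)).K z a b) =ᶠ[𝓝 y] fun _ => 0 := fun y hy a b => by
    constructor <;> filter_upwards [hK.isClosed.isOpen_compl.mem_nhds hy] with z hz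
    exacts [by rw [(fl z hz).1], by rw [(fl z hz).2]; rfl]
  have sy : ∀ y, ((cut χ (dat g)).h y).IsSymm ∧ ((cut χ (dat g)).K y).IsSymm := fun y => by
    by_cases hy : y ∈ K
    · refine ⟨(Matrix.IsSymm.smul (.ext fun a b => r.symm _ (H y hy).1 _ _) _).add
        (Matrix.isSymm_one.smul _), Matrix.IsSymm.smul (.ext fun a b => ?_) _⟩
      simp only [dat, Matrix.of_apply, C1_ap, ← pL_eq, add_comm]
      rw [r.dsym (H y hy).1 (nn _)]
    · rw [(fl y hy).1, (fl y hy).2]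
      exact ⟨Matrix.isSymm_one, Matrix.isSymm_zero⟩
  have pos : ∀ y (v : Fin 3 → ℝ),
      ∑ i, v i ^ 2 ≤ B' * ∑ i, ∑ k, (cut χ (dat g)).h y i k * v i * v k := fun y v => by
    have e1 : ∑ i, ∑ k, (1 : Matrix (Fin 3) (Fin 3) ℝ) i k * v i * v k = ∑ i, v i ^ 2 := by
      simp [Matrix.one_apply, sq]
    have p : 0 ≤ ∑ i, v i ^ 2 := by positivity
    by_cases hy : y ∈ K
    · have k := kc (j y hy)
      have a := k.2.2.1 (∑ i, v i • pL (ee i)) (by simp [Prod.fst_sum, ← pL_eq, pt])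
      have e2 : ∑ i, ∑ k, (cut χ (dat g)).h y i k * v i * v k =
          χ y * tb g (pL y) (∑ i, v i • pL (ee i)) (∑ i, v i • pL (ee i)) +
            (1 - χ y) * ∑ i, v i ^ 2 := by
        rw [← e1]
        simp only [cut, dat, map_add, map_smul, Matrix.add_apply, Matrix.smul_apply,
          Matrix.of_apply, add_apply, smul_apply, smul_eq_mul, Fin.sum_univ_three]
        ring
      have q := sq_le v
      have s := (sq_nonneg _).trans a
      have s' := (mul_nonneg_iff_of_pos_left (kc_pos k)).1 s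
      rw [e2]
      nlinarith [mul_nonneg (c01 y).1 (mul_nonneg (sub_nonneg.2 b3) s'),
        mul_nonneg (sub_nonneg.2 (c01 y).2) (mul_nonneg (sub_nonneg.2 b1) p),
        mul_nonneg (c01 y).1 (sub_nonneg.2 (q.trans (mul_le_mul_of_nonneg_left a zero_le_three)))]
    · rw [(fl y hy).1, e1]
      exact le_mul_of_one_le_left p b1
  have mU : U ⊆ K := subset_closure.trans (hUK.trans interior_subset)
  have eq : ∀ y ∈ U, (cut χ (dat g)).h y = (dat g).h y ∧ (cut χ (dat g)).K y = (dat g).K y :=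
    fun y hy => by simp [cut, c1 y hy]
  have i0 : ∀ y ∈ U, In0 g (cut χ (dat g)) y := fun y hy =>
    in0_congr (eq y hy) (dat_in0 r (H y (mU hy)).1 (kc (j y (mU hy))))
  refine ⟨⟨fun a b => ⟨contDiff_iff_contDiffAt.2 fun y => ?_,
    contDiff_iff_contDiffAt.2 fun y => ?_⟩, sy, fun y hy => fl y fun k => ?_, fun y a b => ?_, pos⟩,
    fun y hy => ⟨?_, ?_⟩⟩
  · by_cases hy : y ∈ K
    exacts [(o2 a b).1.sm (j y hy), contDiffAt_const.congr_of_eventuallyEq (ev y hy a b).1]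
  · by_cases hy : y ∈ K
    exacts [(o2 a b).2.sm (j y hy), contDiffAt_const.congr_of_eventuallyEq (ev y hy a b).2]
  · exact (hy.trans' b2).not_gt (mem_ball_zero_iff.1 (hR k))
  · by_cases hy : y ∈ K
    · exact ⟨(h1 a b (j y hy)).mono le_rfl ((mul_one _).trans_le (b4 a b).1),
        (h2 a b (j y hy)).mono le_rfl ((mul_one _).trans_le (b4 a b).2)⟩
    · refine ⟨((P354YI.jb_const m _ y).congr (ev y hy a b).1).mono le_rfl (le_trans ?_ b1),
        ((P354YI.jb_const m _ y).congr (ev y hy a b).2).mono le_rfl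
          (norm_zero.trans_le (zero_le_one.trans b1))⟩
      rw [Matrix.one_apply]
      split_ifs <;> simp
  · exact i0 y hy
  · exact dat_cn l hU (fun z hz => ⟨(H z (mU hz)).1, kc (j z (mU hz)), i0 z hz⟩) hy

/-- The data d where Φ is very negative, and d0 where Φ is not negative. -/
theorem mix (m : ℕ) (B : ℝ) {μ : ℝ} (μ0 : 0 < μ) : ∃ C, 0 ≤ C ∧ ∀ (Φ : R4 → ℝ) (d0 d : Dat) ε,
    0 ≤ ε → ContDiff ℝ ∞ Φ →
    (∀ a b, ContDiff ℝ ∞ (fun y => d0.h y a b) ∧ ContDiff ℝ ∞ fun y => d0.K y a b) →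
    (∀ y, (d0.h y).IsSymm ∧ (d0.K y).IsSymm) →
    (∀ y, Φ (pt 0 y) < 0 → Jb m (fderiv ℝ Φ) (pt 0 y) B ∧ Gd d y ∧ Cls m ε d d0 y) →
    ∃ dc : Dat, (∀ a b, ContDiff ℝ ∞ (fun y => dc.h y a b) ∧ ContDiff ℝ ∞ fun y => dc.K y a b) ∧
      (∀ y, (dc.h y).IsSymm ∧ (dc.K y).IsSymm) ∧ Dif m (C * ε) dc d0 ∧
      (∀ y, Φ (pt 0 y) < -μ / 2 → dc.h y = d.h y ∧ dc.K y = d.K y) ∧
      ∀ y, 0 ≤ Φ (pt 0 y) → dc.h y = d0.h y ∧ dc.K y = d0.K y := by
  let s : ℝ → ℝ := fun x => Real.smoothTransition (-4 / μ * x - 1)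
  have ss : ContDiff ℝ ∞ s := Real.smoothTransition.contDiff.comp (by fun_prop)
  have s0 : ∀ x, -μ / 4 ≤ x → s x = 0 := fun x hx => Real.smoothTransition.zero_of_nonpos (by
    rw [sub_nonpos, div_mul_eq_mul_div, div_le_one μ0]; linarith)
  have s1 : ∀ x, x ≤ -μ / 2 → s x = 1 := fun x hx => Real.smoothTransition.one_of_one_le (by
    rw [le_sub_iff_add_le, div_mul_eq_mul_div, le_div_iff₀ μ0]; linarith)
  have sb : ∃ E, ∀ x, Jb m s x E := by
    obtain ⟨E, -, hE⟩ := P354YI.ex_jb m (isCompact_Icc (a := -μ) (b := 0))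
      fun x _ => ss.contDiffAt
    refine ⟨max E 1, fun x => ?_⟩
    rcases lt_or_ge x (-μ) with k | k
    · exact ((P354YI.jb_const m (1 : ℝ) x).congr ((eventually_lt_nhds k).mono fun z hz =>
        s1 z (by linarith))).mono le_rfl (by simp)
    rcases lt_or_ge 0 x with k' | k'
    · exact ((P354YI.jb_const m (0 : ℝ) x).congr ((eventually_gt_nhds k').mono fun z hz =>
        s0 z (by linarith))).mono le_rfl (by simp)
    · exact (hE x ⟨k, k'⟩).mono le_rfl (le_max_left _ _)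
  obtain ⟨E, hE⟩ := sb
  let J := {z : (R4 → ℝ) × (X → ℝ) × X × ℝ // ContDiff ℝ ∞ z.1 ∧ ContDiffAt ℝ ∞ z.2.1 z.2.2.1 ∧
    Jb m (fderiv ℝ z.1) (pt 0 z.2.2.1) B ∧ Jb m z.2.1 z.2.2.1 z.2.2.2}
  have o1 : Oj m (fun j : J => pL j.1.2.2.1) (fun j p => s (j.1.1 p)) 1 :=
    Oj.comp (fun j => j.2.1.contDiffAt) m ((Oj.of1 (fun j => P354YI.at_fd j.2.1.contDiffAt)
      fun j => j.2.2.2.1).le (Nat.sub_le _ _)) (.of1 (fun _ => ss.contDiffAt) fun _ => hE _)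
  have o2 : Oj m (fun j : J => j.1.2.2.1) (fun j z => s (j.1.1 (pL z))) 1 :=
    Oj.comp (f := fun _ => pL) (fun _ => pL.contDiff.contDiffAt) m
      ((Oj.cst pL).congr' fun _ _ => pL.fderiv) o1
  obtain ⟨C, C0, hC⟩ := (o2.smulr (.of (fun j : J => j.2.2.1) fun j => j.2.2.2.2)).bd
  refine ⟨C, C0, fun Φ d0 d ε ε0 sΦ sm sy H => ?_⟩
  have cΦ : ContDiff ℝ ∞ fun y => Φ (pL y) := sΦ.comp pL.contDiff
  have key : ∀ u u0 : X → ℝ, ContDiff ℝ ∞ u0 → (∀ y, Φ (pt 0 y) < 0 → ContDiffAt ℝ ∞ u y ∧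
      Jb m (fun z => u z - u0 z) y ε) → ContDiff ℝ ∞ (fun z => u0 z + s (Φ (pL z)) * (u z - u0 z)) ∧
      ∀ y, Jb m (fun z => u0 z + s (Φ (pL z)) * (u z - u0 z) - u0 z) y (C * ε) := by
    intro u u0 su h
    have z : ∀ y, ¬ Φ (pt 0 y) < 0 → ∀ᶠ z in 𝓝 y, s (Φ (pL z)) = 0 := fun y hy =>
      (continuousAt_const.eventually_lt cΦ.continuous.continuousAt
        (show -μ / 4 < Φ (pL y) from lt_of_lt_of_le (by linarith) (not_lt.1 hy))).mono
        fun z hz => s0 _ hz.le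
    refine ⟨contDiff_iff_contDiffAt.2 fun y => ?_, fun y => ?_⟩ <;> by_cases hy : Φ (pt 0 y) < 0
    · exact su.contDiffAt.add ((ss.comp cΦ).contDiffAt.mul ((h y hy).1.sub su.contDiffAt))
    · exact su.contDiffAt.congr_of_eventuallyEq ((z y hy).mono fun w hw => by simp [hw])
    · exact (hC ⟨(Φ, fun z => u z - u0 z, y, ε), sΦ, (h y hy).1.sub su.contDiffAt, (H y hy).1,
        (h y hy).2⟩).congr (.of_forall fun w => by simp)
    · exact ((P354YI.jb_const m (0 : ℝ) y).congr ((z y hy).mono fun w hw => by simp [hw])).mono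
        le_rfl (by rw [norm_zero]; positivity)
  have k1 := fun a b => key (fun y => d.h y a b) _ (sm a b).1 fun y hy =>
    ⟨((H y hy).2.1.sm a b).1, ((H y hy).2.2 a b).1⟩
  have k2 := fun a b => key (fun y => d.K y a b) _ (sm a b).2 fun y hy =>
    ⟨((H y hy).2.1.sm a b).2, ((H y hy).2.2 a b).2⟩
  refine ⟨⟨fun y => d0.h y + s (Φ (pL y)) • (d.h y - d0.h y),
    fun y => d0.K y + s (Φ (pL y)) • (d.K y - d0.K y)⟩, fun a b => ⟨(k1 a b).1, (k2 a b).1⟩,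
    fun y => ?_, fun j hj a b y => ⟨(k1 a b).2 y j hj, (k2 a b).2 y j hj⟩, fun y hy => ?_,
    fun y hy => ?_⟩
  · by_cases hy : Φ (pt 0 y) < 0
    · exact ⟨(sy y).1.add (((H y hy).2.1.sy.1.sub (sy y).1).smul _),
        (sy y).2.add (((H y hy).2.1.sy.2.sub (sy y).2).smul _)⟩
    · simpa [s0 (Φ (pL y)) (le_trans (by linarith) (not_lt.1 hy))] using sy y
  · simp [s1 (Φ (pL y)) hy.le]
  · simp [s0 (Φ (pL y)) (le_trans (by linarith) hy)]

theorem dif_tri {m : ℕ} {B e : ℝ} {d d0 d1 : Dat}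
    (s : ∀ a b, ContDiff ℝ ∞ (fun y => d.h y a b) ∧ ContDiff ℝ ∞ fun y => d.K y a b)
    (s0 : ∀ a b, ContDiff ℝ ∞ (fun y => d0.h y a b) ∧ ContDiff ℝ ∞ fun y => d0.K y a b)
    (s1 : ∀ a b, ContDiff ℝ ∞ (fun y => d1.h y a b) ∧ ContDiff ℝ ∞ fun y => d1.K y a b)
    (h : Dif m e d d0) (h' : Dif m B d0 d1) : Dif m (e + B) d d1 := fun j hj a b y =>
  ⟨(Jb.add (fun j hj => (h j hj a b y).1) (fun j hj => (h' j hj a b y).1)
      ((s a b).1.sub (s0 a b).1).contDiffAt ((s0 a b).1.sub (s1 a b).1).contDiffAt).congr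
      (.of_forall fun _ => (sub_add_sub_cancel _ _ _).symm) j hj,
    (Jb.add (fun j hj => (h j hj a b y).2) (fun j hj => (h' j hj a b y).2)
      ((s a b).2.sub (s0 a b).2).contDiffAt ((s0 a b).2.sub (s1 a b).2).contDiffAt).congr
      (.of_forall fun _ => (sub_add_sub_cancel _ _ _).symm) j hj⟩

theorem dif_mono {m m' : ℕ} {e e' : ℝ} {d d0 : Dat} (h : Dif m e d d0) (a : m' ≤ m) (b : e ≤ e') :
    Dif m' e' d d0 := fun j hj x y z =>
  ⟨(h j (hj.trans a) x y z).1.trans b, (h j (hj.trans a) x y z).2.trans b⟩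

theorem pos_pert {m : ℕ} {c e : ℝ} {d d0 : Dat} (h : Dif m e d d0) (he : 6 * e ≤ c)
    (p : ∀ y (v : Fin 3 → ℝ), c * ∑ i, v i ^ 2 ≤ ∑ i, ∑ j, v i * d0.h y i j * v j) (y : X)
    (v : Fin 3 → ℝ) : c / 2 * ∑ i, v i ^ 2 ≤ ∑ i, ∑ j, v i * d.h y i j * v j := by
  have k : ∀ i j, -(e * (v i ^ 2 + v j ^ 2) / 2) ≤ v i * d.h y i j * v j - v i * d0.h y i j * v j := by
    intro i j
    have a := (h 0 m.zero_le i j y).1
    rw [norm_iteratedFDeriv_zero, Real.norm_eq_abs, abs_le] at a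
    nlinarith [mul_nonneg (sub_nonneg.2 a.1) (sq_nonneg (v i + v j)),
      mul_nonneg (sub_nonneg.2 a.2) (sq_nonneg (v i - v j))]
  have q := p y v
  simp only [Fin.sum_univ_three] at q ⊢
  nlinarith [k 0 0, k 0 1, k 0 2, k 1 0, k 1 1, k 1 2, k 2 0, k 2 1, k 2 2,
    mul_le_mul_of_nonneg_right he (show 0 ≤ v 0 ^ 2 + v 1 ^ 2 + v 2 ^ 2 by positivity)]

end Vale.Agent.P354S0
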