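import Vale.Agent.P354S0.Dat
import Vale.Agent.P354YQ.Vg
import Vale.Agent.P354XV.C4
import Vale.Agent.P354MD.Sy

/-!
One step of local existence: jets of isometries, and a sharp lens.
-/

set_option maxSynthPendingDepth 3

open scoped ContDiff
open Set Filter Topology

noncomputable section

namespace Vale.Agent.P354S0

open Vale.Agent.P354n (R4)
open Vale.Agent.P354I (X Dat)
open Vale.Agent.P354R (Met Pull)
open Vale.Agent.P354RC
open Vale.Agent.P354XD (tb rp_tb)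
open Vale.Agent.P354XE (Tw pt xs rd eT Bd pb)
open Vale.Agent.P354XV
open Vale.Agent.P354XA (ip rd_sq rd_nonneg norm_le Kc gt gt_ap gt_neg)
open Vale.Agent.P354YI (Oj Jb af_of_pull at_iter tb_sub)
open Vale.Agent.P354YQ (Mt)
open Vale.Agent.P354LC (Sol Lens)
open Vale.Agent.P354DT (sol_speed sol_vac)
open Vale.Agent.P354MD (ip_le' rd_le)

section calc0
variable {V : Type} [NormedAddCommGroup V] [NormedSpace ℝ V] {f : R4 → V} {p q : R4} {C : ℝ}

theorem jb_cl {k : ℕ} {A : Set R4} (s : ContDiffAt ℝ ∞ f p) (c : p ∈ closure A)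
    (h : ∀ q ∈ A, Jb k f q C) : Jb k f p C := fun j hj =>
  (at_iter s j).norm.continuousWithinAt.closure_le c continuousWithinAt_const
    fun y hy => h y hy j hj

theorem mvt (h : ∀ x ∈ segment ℝ p q, ContDiffAt ℝ ∞ f x ∧ Jb 1 f x C) :
    ∀ x ∈ segment ℝ p q, ‖f x - f p‖ ≤ C * ‖q - p‖ := fun x hx =>
  ((convex_segment p q).norm_image_sub_le_of_norm_fderiv_le
    (fun x hx => (h x hx).1.differentiableAt (by simp)) (fun x hx => (h x hx).2.fd.zero)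
    (left_mem_segment ℝ p q) hx).trans
    (mul_le_mul_of_nonneg_left (norm_sub_le_of_mem_segment hx) (h x hx).2.nonneg)

theorem tay (h : ∀ x ∈ segment ℝ p q, ContDiffAt ℝ ∞ f x ∧ Jb 1 (fderiv ℝ f) x C) :
    ‖f q - f p - fderiv ℝ f p (q - p)‖ ≤ C * ‖q - p‖ * ‖q - p‖ :=
  (convex_segment p q).norm_image_sub_le_of_norm_fderiv_le'
    (fun x hx => (h x hx).1.differentiableAt (by simp))
    (mvt fun x hx => ⟨at_fd (h x hx).1, (h x hx).2⟩) (left_mem_segment ℝ p q)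
    (right_mem_segment ℝ p q)

end calc0

/-- The jets of an isometry. -/
theorem jet_b (k : ℕ) (B K : ℝ) : ∃ C, ∀ b g W g' D p, Pull b g W g' D → p ∈ W →
    Nice (k + 1) B g Prod.fst p → Nice (k + 1) B g' Prod.fst (b p) → ‖fderiv ℝ b p‖ ≤ K →
    Jb (k + 1) (fderiv ℝ b) p C := by
  let J := {z : (R4 → R4) × (Tw × Set R4) × (Tw × Set R4) × R4 //
    Pull z.1 z.2.1.1 z.2.1.2 z.2.2.1.1 z.2.2.1.2 ∧ z.2.2.2 ∈ z.2.1.2 ∧
    Nice (k + 1) B z.2.1.1 Prod.fst z.2.2.2 ∧ Nice (k + 1) B z.2.2.1.1 Prod.fst (z.1 z.2.2.2) ∧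
    ‖fderiv ℝ z.1 z.2.2.2‖ ≤ K}
  have m1 : Mt (k + 1) (fun j : J => j.1.2.2.2) (fun j => j.1.2.1.1) fun j => j.1.2.1.2 :=
    .of fun j => ⟨j.2.1.open', k2.1 _ _ _ _ _ j.2.1, j.2.2.1, j.2.2.2.1⟩
  have m2 : Mt (k + 1) (fun j : J => j.1.1 j.1.2.2.2) (fun j => j.1.2.2.1.1)
      fun j => j.1.2.2.1.2 :=
    .of fun j => ⟨j.2.1.isOpen, j.2.1.met, j.2.1.maps j.2.2.1, j.2.2.2.2.1⟩
  obtain ⟨C, -, hC⟩ := (Oj.af (fun j : J => af_of_pull j.2.1 j.2.2.1)
    (.of1 (fun j => at_fd (p_at j.2.1 j.2.2.1)) fun j => .of_zero j.2.2.2.2.2) k m1.gm m2.gm).bd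
  exact ⟨C * 1, fun b g W g' D p P hp n n' hK => hC ⟨(b, (g, W), (g', D), p), P, hp, n, n', hK⟩⟩

/-- The pull backs of close metrics are close. -/
theorem pb_bd (k : ℕ) (B : ℝ) : ∃ C, 0 ≤ C ∧ ∀ b g g' D p ε, ContDiffAt ℝ ∞ b p →
    Jb k (fderiv ℝ b) p B → IsOpen D → Met g D → Met g' D → b p ∈ D → Bd k (g - g') (b p) ε →
    Bd k (pb b g - pb b g') p (C * ε) := by
  let J := {z : (R4 → R4) × Tw × Tw × Set R4 × R4 × ℝ // ContDiffAt ℝ ∞ z.1 z.2.2.2.2.1 ∧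
    Jb k (fderiv ℝ z.1) z.2.2.2.2.1 B ∧ IsOpen z.2.2.2.1 ∧ Met z.2.1 z.2.2.2.1 ∧
    Met z.2.2.1 z.2.2.2.1 ∧ z.1 z.2.2.2.2.1 ∈ z.2.2.2.1 ∧
    Bd k (z.2.1 - z.2.2.1) (z.1 z.2.2.2.2.1) z.2.2.2.2.2}
  have o := Oj.pb (fun j : J => j.2.1) (.of1 (fun j => at_fd j.2.1) fun j => j.2.2.1)
    (Oj.tb (g := fun j : J => j.1.2.1 - j.1.2.2.1) (fun j v w =>
      ((j.2.2.2.2.1.smooth v w).sub (j.2.2.2.2.2.1.smooth v w)).contDiffAt
        (j.2.2.2.1.mem_nhds j.2.2.2.2.2.2.1)) fun j => j.2.2.2.2.2.2.2)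
  obtain ⟨C, C0, hC⟩ := o.bd' (g := fun j : J => pb j.1.1 j.1.2.1 - pb j.1.1 j.1.2.2.1) fun j => by
    filter_upwards [j.2.1.continuousAt.eventually (j.2.2.2.1.mem_nhds j.2.2.2.2.2.2.1)] with
      y hy v w
    rw [pb_ap, tb_sub, sub_apply, sub_apply, ← (rp_tb j.2.2.2.1 j.2.2.2.2.1).eq _ hy,
      ← (rp_tb j.2.2.2.1 j.2.2.2.2.2.1).eq _ hy]
    rfl
  exact ⟨C, C0, fun b g g' D p ε h1 h2 h3 h4 h5 h6 h7 =>
    hC ⟨(b, g, g', D, p, ε), h1, h2, h3, h4, h5, h6, h7⟩⟩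

/-- A form which is positive on the cone with a margin is positive on a larger cone. -/
theorem cone_pert {B : ℝ} (B0 : 0 < B) : ∃ σ > 0, ∀ (H : B2) (l : R4 →L[ℝ] ℝ), N0 B H → ‖l‖ ≤ B →
    (∀ v, H v v ≤ 0 → 0 ≤ v.1 → ‖v‖ ≤ B * l v) →
    ∀ u, H u u ≤ σ * ‖u‖ ^ 2 → 0 ≤ u.1 → ‖u‖ ≤ 2 * B * l u := by
  obtain ⟨c, c0, hc⟩ : ∃ c > 0, c = 2 * B * (1 + B) * (1 + 3 * B) := ⟨_, by positivity, rfl⟩
  obtain ⟨e, e0, he⟩ : ∃ e > 0, e = 1 + B + 2 * B ^ 2 := ⟨_, by positivity, rfl⟩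
  obtain ⟨θ, θ0, hθ⟩ : ∃ θ > 0, θ * (c * (1 + B ^ 2)) = 1 / 2 :=
    ⟨1 / (2 * (c * (1 + B ^ 2))), by positivity, by field_simp⟩
  refine ⟨θ ^ 2 / (B * e), by positivity, fun H l n hl h u hu u0 => ?_⟩
  have k : H ∈ Kc B B := ⟨H.opNorm_le_bound₂ B0.le fun v w => (n.bd v w).trans_eq (by ring), n.sy,
    n.sp, n.tl⟩
  obtain ⟨m, m0, hm⟩ : ∃ m : R4, 0 < m.1 ∧ ∀ v, H m v = -v.1 :=
    ⟨-gt H, neg_pos.2 (gt_neg k), fun v => by rw [map_neg, neg_apply, gt_ap k]⟩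
  have m1 : ‖m‖ ≤ c := by
    have := n.nd m
    rw [← hc] at this
    refine this.trans (mul_le_of_le_one_right c0.le ((H m).opNorm_le_bound one_pos.le fun v => ?_))
    rw [hm, norm_neg, one_mul]; exact norm_fst_le v
  have m2 : 1 ≤ B * e * m.1 := by
    have a := n.cone (v := m) (by rw [hm]; linarith)
    have b := n.bd m eT
    rw [hm, norm_eT, mul_one, show eT.1 = 1 from rfl, abs_neg, abs_one] at b
    rw [← he, abs_of_pos m0] at a
    nlinarith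
  have u1 := norm_nonneg u
  set s := θ * ‖u‖ with hs
  have s0 : 0 ≤ s := by positivity
  have a := h (u + s • m) (by
    simp only [map_add, map_smul, add_apply, smul_apply, smul_eq_mul, n.sy u m, hm]
    have : θ ^ 2 / (B * e) * ‖u‖ ^ 2 ≤ s ^ 2 * m.1 := by
      rw [div_mul_eq_mul_div, div_le_iff₀ (by positivity), ← mul_pow]
      nlinarith [sq_nonneg s]
    nlinarith [mul_nonneg s0 u0]) (add_nonneg u0 (mul_nonneg s0 m0.le))
  have b : ‖u‖ ≤ ‖u + s • m‖ + s * c := by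
    refine (norm_le_add_norm_add u (s • m)).trans (add_le_add le_rfl ?_)
    rw [norm_smul, Real.norm_of_nonneg s0]; gcongr
  have d : l m ≤ B * c := (le_abs_self _).trans ((l.le_opNorm m).trans (by gcongr))
  rw [map_add, map_smul, smul_eq_mul] at a
  have z : s * (c * (1 + B ^ 2)) = ‖u‖ / 2 := by rw [hs, mul_right_comm, hθ]; ring
  nlinarith [mul_le_mul_of_nonneg_left d (mul_nonneg B0.le s0)]

/-- The linear function of the lens. -/
theorem ex_L {B K : ℝ} (B0 : 0 < B) (K0 : 0 < K) : ∃ σ > 0, ∃ κ > 0, ∃ C, 0 ≤ C ∧ ∀ (H H' : B2)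
    (A : R4 →L[ℝ] R4) (l : R4 →L[ℝ] ℝ), N0 B H → N0 B H' → (∀ v w, H v w = H' (A v) (A w)) →
    ‖A‖ ≤ K → (∀ v : R4, v.1 = 0 → A v = v) → 0 < (A eT).1 → ‖l‖ ≤ B →
    (∀ v, H v v ≤ 0 → 0 ≤ v.1 → ‖v‖ ≤ B * l v) → κ ≤ (A eT).1 ∧ ∃ L : R4 →L[ℝ] ℝ, ‖L‖ ≤ C ∧
      (∀ v : R4, v.1 = 0 → L v = l v) ∧ L (A eT) ≤ l eT - κ ∧
      ∀ v, H' v v ≤ σ * ‖v‖ ^ 2 → 0 < v.1 → 0 ≤ L v := by
  obtain ⟨σ, σ0, hσ⟩ := cone_pert B0
  obtain ⟨c, c0, hc⟩ : ∃ c > 0, c = 2 * B * (1 + B) * (1 + 3 * B) * (B * K) :=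
    ⟨_, by positivity, rfl⟩
  refine ⟨σ / K ^ 2, by positivity, min c⁻¹ (2 * B)⁻¹, by positivity, (B + (2 * B)⁻¹) * c,
    by positivity, fun H H' A l n n' e hA s o hl h => ?_⟩
  have low : ∀ u, ‖u‖ ≤ c * ‖A u‖ := fun u => by
    rw [hc, mul_assoc _ (B * K)]
    refine (n.nd u).trans (mul_le_mul_of_nonneg_left ((H u).opNorm_le_bound (by positivity)
      fun w => ?_) (by positivity))
    rw [e]
    refine (n'.bd _ _).trans ?_
    have := A.le_of_opNorm_le hA w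
    calc B * (‖A u‖ * ‖A w‖) ≤ B * (‖A u‖ * (K * ‖w‖)) := by gcongr
      _ = _ := by ring
  let R : R4 →L[ℝ] R4 := .id ℝ R4 +
    ((A eT).1⁻¹ • ContinuousLinearMap.fst ℝ ℝ (ℝ × ℝ × ℝ)).smulRight (eT - A eT)
  have hR : ∀ v, R v = v + ((A eT).1⁻¹ * v.1) • (eT - A eT) := fun v => rfl
  have AR : ∀ v, A (R v) = v := fun v => by
    have z : R v = (v - ((A eT).1⁻¹ * v.1) • A eT) + ((A eT).1⁻¹ * v.1) • eT := by
      rw [hR, smul_sub]; abel
    rw [z, map_add, map_smul, s _ (by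
      rw [Prod.fst_sub, Prod.smul_fst, smul_eq_mul, mul_right_comm, inv_mul_cancel₀ o.ne', one_mul,
        sub_self]), sub_add_cancel]
  have R1 : ∀ v, (R v).1 = (A eT).1⁻¹ * v.1 := fun v => by
    rw [hR]
    simp only [Prod.fst_add, Prod.smul_fst, Prod.fst_sub, smul_eq_mul, show eT.1 = 1 from rfl]
    field_simp
    ring
  have Rn : ∀ v, ‖R v‖ ≤ c * ‖v‖ := fun v => by simpa only [AR] using low (R v)
  let l' : R4 →L[ℝ] ℝ := l - (2 * B)⁻¹ • ContinuousLinearMap.fst ℝ ℝ (ℝ × ℝ × ℝ)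
  have hl' : ∀ v, l' v = l v - (2 * B)⁻¹ * v.1 := fun v => rfl
  refine ⟨(min_le_left _ _).trans ?_, l'.comp R, ContinuousLinearMap.opNorm_le_bound _
    (by positivity) fun v => ?_, fun v hv => ?_, ?_, fun v h1 h2 => ?_⟩
  · have a := (le_abs_self _).trans ((norm_fst_le (R eT)).trans (Rn eT))
    rw [R1, norm_eT, show eT.1 = 1 from rfl, mul_one, mul_one] at a
    exact inv_le_of_inv_le₀ o a
  · have a := l.le_of_opNorm_le hl (R v)
    have b : |(2 * B)⁻¹ * (R v).1| ≤ (2 * B)⁻¹ * ‖R v‖ := by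
      rw [abs_mul, abs_of_pos (by positivity)]
      exact mul_le_mul_of_nonneg_left (norm_fst_le (R v)) (by positivity)
    refine ((norm_sub_le _ _).trans (add_le_add a b)).trans ?_
    rw [← add_mul, mul_assoc]
    exact mul_le_mul_of_nonneg_left (Rn v) (by positivity)
  · simp only [ContinuousLinearMap.comp_apply, hR, hl', hv, mul_zero, zero_smul, add_zero, sub_zero]
  · rw [ContinuousLinearMap.comp_apply, hR, inv_mul_cancel₀ o.ne', one_smul, add_sub_cancel, hl',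
      show eT.1 = 1 from rfl, mul_one]
    exact sub_le_sub_left (min_le_right _ _) _
  · have a : ‖v‖ ≤ K * ‖R v‖ := by simpa only [AR] using A.le_of_opNorm_le hA (R v)
    have b := hσ H l n hl h (R v) (by
      rw [e, AR]
      refine h1.trans ?_
      rw [div_mul_eq_mul_div, div_le_iff₀ (by positivity), mul_assoc, ← mul_pow, mul_comm _ K]
      gcongr) (by rw [R1]; positivity)
    rw [ContinuousLinearMap.comp_apply, hl', sub_nonneg, inv_mul_le_iff₀ (by positivity)]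
    exact ((le_abs_self _).trans (norm_fst_le (R v))).trans b

variable {d : Dat} {δ c : ℝ} {g : Tw} {n : R4 → R4}

theorem sol_lv {U : Set X} (S : Sol d δ c g n) (hc : 0 < c) (hU : IsOpen U)
    (h : ∀ y ∈ U, CnAt d y) : Lv g (ovr δ (2 * (2 / c ^ 3 + 1)) U) :=
  ⟨ovr_open δ (by positivity) hU, met_mono S.met fun _ k => k.1, sol_vac S hc hU h,
    fun p k => S.sig p k.1⟩

/-- A lens which is cut by a crude cone and by a linear function. -/
theorem lens2 (S : Sol d δ c g n) (hc : 0 < c) {p : R4} (p0 : p.1 = 0) (L : R4 →L[ℝ] ℝ)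
    {e T r : ℝ} (hT : T < δ) (r0 : 0 < r)
    (hL : ∀ q ∈ P354LC.slab δ, ‖q - p‖ ≤ T + r → ∀ v, g q v v ≤ 0 → 0 < v.1 → 0 ≤ L v)
    (hb : ∀ z, rd (pt 0 z - p) < r → L (pt 0 z - p) < e → CnAt d z) :
    Lv g {q | q.1 ∈ Ioo 0 T ∧ ip (q - p) (q - p) + 4 * r * (2 / c ^ 3 + 1) * q.1 < r ^ 2 ∧
      L (q - p) < e} := by
  set c0 := 2 / c ^ 3 + 1 with hc0
  have c1 : 0 < c0 := by positivity
  let φ : Bool → R4 → ℝ := fun i q =>
    bif i then ip (q - p) (q - p) + 4 * r * c0 * q.1 - r ^ 2 else L (q - p) - e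
  have sφ : ∀ i, ContDiff ℝ 1 (φ i) := fun i => by
    cases i
    · exact (L.contDiff.comp (contDiff_id.sub contDiff_const)).sub contDiff_const
    · simp only [φ, ip, cond_true]; fun_prop
  have key : ∀ q : R4, 0 ≤ q.1 → φ true q < 0 → rd (q - p) < r := fun q h0 h => by
    refine lt_of_pow_lt_pow_left₀ 2 r0.le ?_
    have : 0 ≤ 4 * r * c0 * q.1 := by positivity
    simp only [φ, cond_true] at h
    linarith [rd_sq (q - p)]
  have nr : ∀ q : R4, q.1 ∈ Icc 0 T → φ true q < 0 → ‖q - p‖ ≤ T + r := fun q h0 h => by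
    have := norm_le (q - p)
    rw [Prod.fst_sub, p0, sub_zero, abs_of_nonneg h0.1] at this
    linarith [key q h0.1 h, h0.2]
  have o : IsOpen {q : R4 | q.1 ∈ Ioo 0 T ∧ ip (q - p) (q - p) + 4 * r * c0 * q.1 < r ^ 2 ∧
      L (q - p) < e} := by
    have c2 : Continuous fun q : R4 => ip (q - p) (q - p) + 4 * r * c0 * q.1 := by
      unfold ip; fun_prop
    have c3 : Continuous fun q : R4 => L (q - p) := by fun_prop
    exact (isOpen_Ioo.preimage continuous_fst).inter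
      ((isOpen_lt c2 continuous_const).inter (isOpen_lt c3 continuous_const))
  have l := S.lor _ o (fun q hq => (abs_of_pos hq.1.1).trans_lt (hq.1.2.trans hT)) fun x hx =>
    Or.inl ⟨Bool, inferInstance, φ, T, Metric.closedBall p (T + r) ∩ {q | |q.1| ≤ T},
      (isCompact_closedBall _ _).inter_right (isClosed_le (by fun_prop) continuous_const),
      fun q hq => lt_of_le_of_lt hq.2 hT, sφ, fun q hq h => ?_,
      fun z h => hb z (key _ le_rfl (h true)) (sub_neg.1 (h false)),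
      by rw [one_mul]; exact Ioo_subset_Icc_self hx.1, fun i => by
        cases i
        exacts [sub_neg.2 hx.2.2, sub_neg.2 hx.2.1]⟩
  · exact ⟨l.isOpen, l.met, l.vac, l.sig⟩
  rw [one_mul] at hq
  have q1 : |q.1| ≤ T := (abs_of_nonneg hq.1).trans_le hq.2
  refine ⟨⟨mem_closedBall_iff_norm.2 (nr q hq (h true)), q1⟩, fun i v h1 h2 => ?_⟩
  have ln : HasDerivAt (fun t : ℝ => q + t • v) v 0 := by
    simpa using ((hasDerivAt_id (0 : ℝ)).smul_const v).const_add q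
  have k := ((sφ i).differentiable one_ne_zero q).hasFDerivAt.comp_hasDerivAt_of_eq 0 ln (by simp)
  rw [one_mul]
  cases i
  · have k2 := (L.hasFDerivAt.comp_hasDerivAt 0 (ln.sub_const p)).sub_const e
    rw [k.unique k2]
    exact hL q (q1.trans_lt hT) (nr q hq (h true)) v h1 h2
  · have e2 : (φ true ∘ fun t : ℝ => q + t • v) = fun t => φ true q +
        t * (2 * ip (q - p) v + 4 * r * c0 * v.1) + t ^ 2 * ip v v := by
      funext t
      simp only [φ, ip, cond_true, Function.comp, Prod.fst_add, Prod.snd_add, Prod.fst_sub,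
        Prod.snd_sub, Prod.smul_fst, Prod.smul_snd, smul_eq_mul]
      ring
    rw [e2] at k
    have k2 := (((hasDerivAt_id (0 : ℝ)).mul_const (2 * ip (q - p) v + 4 * r * c0 * v.1)).const_add
      (φ true q)).add ((hasDerivAt_pow 2 (0 : ℝ)).mul_const (ip v v))
    rw [k.unique k2]
    have a := sol_speed S hc (q1.trans_lt hT) h1 h2
    have b := (abs_le.1 (ip_le' (q - p) v)).1
    have b2 := mul_le_mul (key q hq.1 (h true)).le a (norm_nonneg _) r0.le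
    norm_num
    nlinarith

end Vale.Agent.P354S0
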