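import Vale.Agent.P354S0.Geo
import Vale.Agent.P354UG.Ug

/-!
S0: one step of local existence near a reference solution.
-/

set_option maxSynthPendingDepth 3

open scoped ContDiff
open Set Filter Topology

noncomputable section

namespace Vale.Agent.P354S0

open Vale.Agent.P354n (R4)
open Vale.Agent.P354I (X Dat)
open Vale.Agent.P354R (Met Pull)
open Vale.Agent.P354RC
open Vale.Agent.P354XD (tb rp_tb)
open Vale.Agent.P354XE (Tw pt xs rd eT Bd pb)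
open Vale.Agent.P354XU (lens)
open Vale.Agent.P354XV
open Vale.Agent.P354XA (ip rd_sq rd_nonneg norm_le in0_dat nice_kc)
open Vale.Agent.P354YI (Jb Gd Cls Ref S0)
open Vale.Agent.P354LC (Sol Adm Dif eu)
open Vale.Agent.P354DT (db_adm db_dif db_one sol_in0 sol_nice bd_mono)
open Vale.Agent.P354MD (rd_le)
open Vale.Agent.P354UG (ol ol_open ol_sub)

theorem seg_v {p x : R4} (h : 0 ≤ p.1) (hx : x ∈ segment ℝ ((0 : ℝ), p.2) p) :
    ∃ s ∈ Icc 0 p.1, x = (s, p.2) := by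
  obtain ⟨a, b, a0, b0, e, rfl⟩ := hx
  refine ⟨b * p.1, ⟨by positivity, by nlinarith⟩, Prod.ext (by simp) ?_⟩
  rw [Prod.snd_add, Prod.smul_snd, Prod.smul_snd, ← add_smul, e, one_smul]

theorem xs_dist (p q : R4) : dist (xs p) (xs q) = rd (p - q) := by
  rw [dist_eq_norm, ← xsL_ap, ← xsL_ap, ← map_sub, xsL_ap, rd]

/-- The image of a point below the lid lies in a lens of the perturbed solution. -/
theorem near_vac {B K c a δ : ℝ} (C : ℝ) (B0 : 0 < B) (K0 : 0 < K) (c0 : 0 < c) (a0 : 0 < a)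
    (d0 : 0 < δ) : ∃ τ > 0, ∃ σ > 0, ∀ (H H' : B2) (Φ : R4 → ℝ) (b : R4 → R4) (p q : R4) d g n μ,
    q = (0, p.2) → 0 < p.1 → p.1 ≤ τ → N0 B H → N0 B H' →
    (∀ v w, H v w = H' (fderiv ℝ b q v) (fderiv ℝ b q w)) → ‖fderiv ℝ b q‖ ≤ K →
    (∀ v : R4, v.1 = 0 → fderiv ℝ b q v = v) → 0 < (fderiv ℝ b q eT).1 → b q = q →
    dist (b p) q ≤ K * p.1 → (∀ x ∈ segment ℝ q p, ContDiffAt ℝ ∞ b x ∧ Jb 1 (fderiv ℝ b) x C) →
    ContDiff ℝ ∞ Φ → (∀ x : R4, x.1 ∈ Icc 0 a → rd (x - q) ≤ a → Jb 2 Φ x B) →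
    (∀ v, H v v ≤ 0 → 0 ≤ v.1 → ‖v‖ ≤ B * fderiv ℝ Φ q v) → Sol d δ c g n →
    (∀ x ∈ P354LC.slab δ, ∀ v, H' v v ≤ g x v v + (B * ‖x - q‖ + σ) * ‖v‖ ^ 2) → 0 < μ →
    (∀ z, Φ (pt 0 z) < -μ / 2 → CnAt d z) → Φ p ≤ -μ → ∃ D, Lv g D ∧ b p ∈ D := by
  obtain ⟨σ, σ0, κ, κ0, E, E0, hL⟩ := ex_L B0 K0
  obtain ⟨c1, c2, hc⟩ : ∃ c1 > 0, c1 = 2 / c ^ 3 + 1 := ⟨_, by positivity, rfl⟩
  obtain ⟨Λ, Λ0, hΛ⟩ : ∃ Λ > 0, Λ = 4 * c1 * K + 2 * K + 1 := ⟨_, by positivity, rfl⟩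
  obtain ⟨τ, ⟨⟨t1, t2⟩, ⟨t3, t4⟩, ⟨t5, t6⟩⟩, τ0⟩ := ((((small (K + 1) d0).and (small Λ a0)).and
    (((small (B * (K + 1 + Λ)) (half_pos σ0)).and (small |C| κ0)).and
    ((small (B + E * |C| + B * Λ ^ 2) κ0).and (small 1 a0)))).and self_mem_nhdsWithin).exists
  replace τ0 : 0 < τ := τ0
  refine ⟨τ, τ0, σ / 2, half_pos σ0, fun H H' Φ b p q d g n μ hq p0 p1 n0 n1 e hA s o bq hd hb sΦ
    jΦ hc' S hg μ0 cn hp => ?_⟩
  have q0 : q.1 = 0 := by rw [hq]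
  have sc : ∀ {u v : ℝ}, 0 ≤ u → u * τ < v → u * p.1 < v := fun h k =>
    (mul_le_mul_of_nonneg_left p1 h).trans_lt k
  have cv : Convex ℝ {x : R4 | x.1 ∈ Icc 0 a ∧ rd (x - q) ≤ a} := by
    simp only [← xs_dist, ← xsL_ap]
    exact ((convex_Icc 0 a).is_linear_preimage (LinearMap.fst ℝ ℝ _).isLinear).inter
      ((convex_closedBall (xsL q) a).is_linear_preimage xsL.toLinearMap.isLinear)
  have z0 : ∀ t : ℝ, rd (t • eT) = 0 := fun t => by simp [rd, xs, eT]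
  have qm : q ∈ {x : R4 | x.1 ∈ Icc 0 a ∧ rd (x - q) ≤ a} :=
    ⟨by rw [q0]; exact ⟨le_rfl, a0.le⟩, by simpa using (z0 0).trans_le a0.le⟩
  have tΦ : ∀ x : R4, x.1 ∈ Icc 0 a → rd (x - q) ≤ a →
      |Φ x - Φ q - fderiv ℝ Φ q (x - q)| ≤ B * ‖x - q‖ * ‖x - q‖ := fun x h1 h2 =>
    tay fun y hy => ⟨sΦ.contDiffAt, (jΦ y (cv.segment_subset qm ⟨h1, h2⟩ hy).1
      (cv.segment_subset qm ⟨h1, h2⟩ hy).2).fd⟩
  obtain ⟨k1, L, L1, L2, L3, L4⟩ := hL H H' _ _ n0 n1 e hA s o (jΦ q qm.1 qm.2).fd.zero hc'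
  have pq : p - q = p.1 • eT := by rw [hq]; simp [eT, Prod.ext_iff]
  have np : ‖p.1 • eT‖ = p.1 := by rw [norm_smul, norm_eT, mul_one, Real.norm_of_nonneg p0.le]
  have tb := tay hb
  have tp := (abs_le.1 (tΦ p ⟨p0.le, by linarith⟩ (by rw [pq, z0]; exact a0.le))).1
  rw [pq, np, map_smul] at tb tp
  rw [bq] at tb
  obtain ⟨w, hw, w1⟩ : ∃ w, b p - q = p.1 • fderiv ℝ b q eT + w ∧ ‖w‖ ≤ |C| * p.1 * p.1 :=
    ⟨_, (add_sub_cancel _ _).symm, tb.trans (by gcongr; exact le_abs_self C)⟩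
  rw [dist_eq_norm] at hd
  have b1 : (b p).1 = (b p - q).1 := by rw [Prod.fst_sub, q0, sub_zero]
  have b2 : (b p).1 ≤ K * p.1 := b1.trans_le ((le_abs_self _).trans ((norm_fst_le _).trans hd))
  have b3 : 0 < (b p).1 := by
    have := (abs_le.1 ((norm_fst_le w).trans w1)).1
    rw [b1, hw, Prod.fst_add, Prod.smul_fst, smul_eq_mul]
    linarith only [this, mul_lt_mul_of_pos_right (sc (abs_nonneg C) t4) p0,
      mul_le_mul_of_nonneg_left k1 p0.le]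
  refine ⟨_, lens2 S c0 q0 L (e := -μ / 2 - Φ q - B * (Λ * p.1) * (Λ * p.1))
    (T := (K + 1) * p.1) (r := Λ * p.1) (sc (by positivity) t1) (by positivity)
    (fun x hx h v h1 h2 => L4 v ((hg x hx v).trans ?_) h2) (fun z h1 h2 => cn z ?_),
    ⟨b3, by linarith⟩, ?_, ?_⟩
  · have : B * ‖x - q‖ + σ / 2 ≤ σ := by
      linarith only [sc (by positivity) t3, mul_le_mul_of_nonneg_left h B0.le]
    linarith only [h1, mul_le_mul_of_nonneg_right this (sq_nonneg ‖v‖)]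
  · have z1 : (pt 0 z - q).1 = 0 := by rw [Prod.fst_sub, q0, sub_zero]; rfl
    have z2 := norm_le (pt 0 z - q)
    rw [z1, abs_zero, zero_add] at z2
    have z3 := (abs_le.1 (tΦ (pt 0 z) ⟨le_rfl, a0.le⟩ (h1.trans (sc Λ0.le t2)).le)).2
    have z4 : B * ‖pt 0 z - q‖ * ‖pt 0 z - q‖ ≤ B * (Λ * p.1) * (Λ * p.1) := by
      have := z2.trans h1.le
      gcongr
    rw [L2 _ z1] at h2
    linarith only [h2, z3, z4]
  · have r1 : rd (b p - q) ≤ 2 * (K * p.1) := (rd_le _).trans (by linarith)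
    have r2 := pow_le_pow_left₀ (rd_nonneg _) r1 2
    have r3 : 4 * (Λ * p.1) * c1 * (b p).1 ≤ 4 * (Λ * p.1) * c1 * (K * p.1) := by gcongr
    have r4 : 4 * K ^ 2 + 4 * Λ * c1 * K < Λ ^ 2 := by
      have : Λ ^ 2 - 4 * Λ * c1 * K = Λ * (2 * K + 1) := by rw [hΛ]; ring
      rw [hΛ] at this ⊢
      linarith only [this, K0, mul_pos c2 K0, mul_pos (mul_pos c2 K0) K0]
    rw [← rd_sq, ← hc]
    linarith only [r2, r3, mul_lt_mul_of_pos_right r4 (pow_pos p0 2)]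
  · have l1 : L w ≤ E * (|C| * p.1 * p.1) :=
      (le_abs_self _).trans ((L.le_opNorm w).trans (by gcongr))
    rw [hw, map_add, map_smul, smul_eq_mul]
    rw [smul_eq_mul] at tp
    linarith only [l1, tp, hp, μ0, mul_le_mul_of_nonneg_left L3 p0.le,
      mul_lt_mul_of_pos_right (sc (by positivity) t5) p0]

theorem ref_mono {m m' : ℕ} {B B' a : ℝ} {K U : Set X} {g : Tw} {D : Set R4} {Φ : R4 → ℝ} {d : Dat}
    (r : Ref m B a K U g D Φ d) (h : m' ≤ m) (h' : B ≤ B') : Ref m' B' a K U g D Φ d := by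
  refine ⟨r.lv, r.sm, fun y hy => ⟨(r.base y hy).1, (r.base y hy).2.1.le h h', (r.base y hy).2.2⟩,
    fun p h1 h2 => (r.jb p h1 h2).mono h h', r.mono, fun p h1 h2 => ?_⟩
  obtain ⟨k1, k2, k3, k4, k5⟩ := r.lid p h1 h2
  have up : ∀ {x y : ℝ}, 0 ≤ x → x ≤ B * y → x ≤ B' * y := fun x0 k => k.trans
    (mul_le_mul_of_nonneg_right h' ((mul_nonneg_iff_of_pos_left k3.pos).1 (x0.trans k)))
  exact ⟨k1, k2, k3.le h h', up zero_le_one k4, fun v a b => up (norm_nonneg v) (k5 v a b)⟩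

theorem lv_max (g : Tw) : Lv g {q | ∃ D, Lv g D ∧ q ∈ D} :=
  lv_local (isOpen_iff_mem_nhds.2 fun _ ⟨D, l, h⟩ =>
    mem_of_superset (l.isOpen.mem_nhds h) fun _ k => ⟨D, l, k⟩)
    fun _ ⟨D, l, h⟩ => ⟨g, D, l, h, EventuallyEq.rfl⟩

/-- **S0.** -/
theorem s0_of (hL : P354LC.LOC) (hG : GUS) : S0 := by
  intro B a K U a0 hK hU hUK
  have mU : U ⊆ K := subset_closure.trans (hUK.trans interior_subset)
  obtain ⟨Dc, hD⟩ := data2 hK hU hUK
  obtain ⟨B1, h1⟩ := hD 13 B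
  obtain ⟨R, hR⟩ := hK.isBounded.subset_ball 0
  have m0 : 0 < (max B1 1)⁻¹ := by positivity
  obtain ⟨δ, δ0, c, c0, G, n, hS, hB⟩ := hL (max B1 R) ((max B1 1)⁻¹ / 2) (1 + (B1 + 1))
    (half_pos m0)
  obtain ⟨C1, hC1⟩ := hB 1 (B1 + 1)
  have up : ∀ B C : ℝ, ∃ B2, B ≤ B2 ∧ C ≤ B2 ∧ 1 ≤ B2 ∧ c⁻¹ ≤ B2 := fun B C =>
    ⟨max (max B C) (max 1 c⁻¹), by simp, by simp, by simp, by simp⟩
  obtain ⟨B2, b1, b2, b3, b4⟩ := up B C1
  obtain ⟨K2, K0, hK2⟩ := hG B2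
  obtain ⟨C2, hC2⟩ := jet_b 0 B2 K2
  obtain ⟨τ, τ0, σ, σ0, hv⟩ := near_vac C2 (one_pos.trans_le b3) K0 c0 a0 δ0
  obtain ⟨c1, c2, hc⟩ : ∃ c1 > 0, c1 = 2 * (2 / c ^ 3 + 1) := ⟨_, by positivity, rfl⟩
  obtain ⟨T, ⟨⟨t1, t2⟩, ⟨t3, t4⟩⟩, T0⟩ := ((((small 1 a0).and (small K2 one_pos)).and
    ((small K2 δ0).and (small ((c1 + 2) * K2) a0))).and self_mem_nhdsWithin).exists
  replace T0 : 0 < T := T0
  refine ⟨min (T / 2) τ, ⟨by positivity, (min_le_left _ _).trans (by linarith)⟩,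
    fun k => ⟨k + 14, fun B' μ μ0 => ?_⟩⟩
  obtain ⟨B1', h1'⟩ := hD (k + 13) B'
  obtain ⟨C3, hC3⟩ := hB (k + 1) (1 + (B1' + 1))
  obtain ⟨C4, C40, hC4⟩ := mix (k + 13) B' μ0
  obtain ⟨B3, e1, e2, e3, e4⟩ := up B' C3
  obtain ⟨C5, hC5⟩ := jet_b k B3 K2
  obtain ⟨C6, C60, hC6⟩ := pb_bd k C5
  obtain ⟨η, ⟨⟨s1, s2⟩, s3⟩, η0⟩ := ((((small C4 one_pos).and (small (6 * C4) m0)).and
    (small (B3 * C4) σ0)).and self_mem_nhdsWithin).exists
  refine ⟨η, η0, C6 * (B3 * C4), fun g0 D0 Φ d0 d ε r r' he hd => ?_⟩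
  have Φ0 : ∀ p : R4, p.1 ∈ Icc 0 a → Φ p ≤ a → Φ (0, p.2) ≤ Φ p := fun p h1 h2 =>
    r.mono p h1 h2 0 ⟨le_rfl, h1.1⟩
  have da : ∀ {t : ℝ}, t ∈ Icc 0 (min (T / 2) τ) → t < T := fun h => by
    linarith [h.2.trans (min_le_left _ _)]
  rcases lt_or_ge ε 0 with ε0 | ε0
  · have no : ∀ y, ¬ Φ (pt 0 y) ≤ -μ := fun y hy =>
      ε0.not_ge ((hd y (by linarith)).2 0 0).1.nonneg
    exact ⟨g0, D0, r.lv, fun p h1 h2 => (no (xs p) ((Φ0 p ⟨h1.1, by linarith [da h1]⟩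
      (by linarith)).trans h2)).elim, fun y hy => (no y hy).elim⟩
  have sc : ∀ {u v : ℝ}, 0 ≤ u → u * η < v → u * ε ≤ v := fun h k =>
    ((mul_le_mul_of_nonneg_left he h).trans_lt k).le
  obtain ⟨db, hin⟩ := h1 g0 D0 r.lv fun y hy => ⟨(r.base y hy).1, (r.base y hy).2.1⟩
  have db' := (h1' g0 D0 r.lv fun y hy => ⟨(r.base y hy).1, (r'.base y hy).2.1⟩).1
  generalize Dc g0 = dc0 at db hin db'
  have r0 := rp_tb r.lv.isOpen r.lv.met
  have eq0 : ∀ y ∈ U, dc0.h y = d0.h y ∧ dc0.K y = d0.K y := fun y hy => by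
    obtain ⟨k1, k2, k3⟩ := r.base y (mU hy)
    have a := in0_dat r0 k1 (nice_kc r0 k1 k2) k3
    have b := in0_dat r0 k1 (nice_kc r0 k1 k2) (hin y hy).1
    exact ⟨b.1.trans a.1.symm, b.2.trans a.2.symm⟩
  have xU : ∀ p : R4, p.1 ∈ Icc 0 a → Φ p ≤ a → xs p ∈ U := fun p h1 h2 =>
    (r.lid p h1 h2).1 (Metric.mem_closedBall_self a0.le)
  have yU : ∀ y, Φ (pt 0 y) ≤ a → y ∈ U := fun y hy =>
    xs_pt 0 y ▸ xU (pt 0 y) ⟨le_rfl, a0.le⟩ hy
  obtain ⟨dc, sm, sy, dif, q1, q0⟩ := hC4 Φ dc0 d ε ε0 r.sm db.sm db.sy fun y hy => by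
    have m := yU y (by linarith)
    refine ⟨(r'.jb (pt 0 y) ⟨le_rfl, a0.le⟩ (by rwa [xs_pt])).fd, (hd y hy).1, fun i j => ?_⟩
    exact ⟨(((hd y hy).2 i j).1.mono (by omega) le_rfl).congr
      ((hU.eventually_mem m).mono fun z hz => by simp only [(eq0 z hz).1]),
      (((hd y hy).2 i j).2.mono (by omega) le_rfl).congr
      ((hU.eventually_mem m).mono fun z hz => by simp only [(eq0 z hz).2])⟩
  have A := db_adm db
  have A0 : Adm (max B1 R) ((max B1 1)⁻¹ / 2) dc0 := ⟨A.smooth, A.symm, fun y v =>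
    (mul_le_mul_of_nonneg_right (half_le_self m0.le) (by positivity)).trans (A.pos y v),
    fun y hy => A.flat y ((le_max_left _ _).trans hy)⟩
  have A1 : Adm (max B1 R) ((max B1 1)⁻¹ / 2) dc := ⟨sm, sy,
    pos_pert dif (by linarith [sc (by positivity) s2]) A.pos, fun y hy => by
      have k := q0 y (not_lt.1 fun k => ((le_max_right _ _).trans hy).not_gt
        (mem_ball_zero_iff.1 (hR (mU (yU y (by linarith))))))
      rw [k.1, k.2]
      exact A0.flat y hy⟩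
  have se : ∀ a b, ContDiff ℝ ∞ (fun y => eu.h y a b) ∧ ContDiff ℝ ∞ fun y => eu.K y a b :=
    fun _ _ => ⟨contDiff_const, contDiff_const⟩
  have f0 := dif_mono (db_dif db (j := 12) (by omega)) le_rfl (le_add_of_nonneg_left zero_le_one)
  have f0' := dif_mono (db_dif db' le_rfl) le_rfl (le_add_of_nonneg_left zero_le_one)
  have dif1 := dif_mono dif le_rfl (sc C40 s1)
  have f1 := dif_tri sm db.sm se (dif_mono dif1 (by omega) le_rfl) (db_dif db (j := 12) (by omega))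
  have f1' := dif_tri sm db.sm se dif1 (db_dif db' le_rfl)
  have S0 := hS dc0 A0 f0
  have S1 := hS dc A1 f1
  have n0 : ∀ q ∈ P354LC.slab δ, Nice 1 B2 (G dc0) Prod.fst q := fun q hq =>
    sol_nice S0 c0 hq (bd_mono ((hC1 dc0 A0 f0 (db_dif db le_rfl)).1 q hq) b2) b3 b4
  have n0' : ∀ q ∈ P354LC.slab δ, Nice (k + 1) B3 (G dc0) Prod.fst q := fun q hq =>
    sol_nice S0 c0 hq (bd_mono ((hC3 dc0 A0 f0 f0').1 q hq) e2) e3 e4
  have df : ∀ q ∈ P354LC.slab δ, Bd (k + 1) (G dc - G dc0) q (B3 * (C4 * ε)) := fun q hq =>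
    bd_mono ((hC3 dc A1 f1 f1').2 dc0 _ A0 f0 f0' dif q hq) (by gcongr)
  replace r := ref_mono r le_rfl b1
  replace r' := ref_mono r' le_rfl e1
  have l0 := sol_lv S0 c0 hU fun y hy => (hin y hy).2
  rw [← hc] at l0
  let φ : Unit → R4 → ℝ := fun _ x => Φ x - a / 2
  have cφ : ∀ i, Continuous (φ i) := fun _ => r.sm.continuous.sub continuous_const
  have cl : ∀ p ∈ clens φ T, p.1 ∈ Icc 0 a ∧ Φ p ≤ a := fun p hp =>
    ⟨⟨hp.1.1, by linarith [hp.1.2]⟩, by linarith [sub_nonpos.1 (hp.2 ())]⟩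
  have cl' := fun p (hp : p ∈ lens φ T) => cl p (P354UG.lens_sub hp)
  obtain ⟨b, O, hO, lO, -, sb, mb, fx, est⟩ := hK2 Unit φ T g0 D0 (G dc0) _ dc0 r.lv l0 T0 t2.le
    (fun _ => (r.sm.of_le (by simp)).sub contDiff_const) (by
      refine (isCompact_closedBall (0 : R4) (T + R)).of_isClosed_subset
        ((isClosed_Icc.preimage continuous_fst).inter ?_) fun p hp => ?_
      · change IsClosed {p | ∀ i, φ i p ≤ 0}
        simp only [ofPred_forall]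
        exact isClosed_iInter fun i => isClosed_le (cφ i) continuous_const
      · have := mem_ball_zero_iff.1 (hR (mU (xU p (cl p hp).1 (cl p hp).2)))
        have k := norm_le p
        rw [abs_of_nonneg hp.1.1] at k
        exact mem_closedBall_zero_iff.2 (by linarith [hp.1.2, show rd p < R from this]))
    (fun p hp => (r.lid p (cl p hp).1 (cl p hp).2).2.1)
    (fun p hp s hs => by
      rw [uIcc_of_le hp.1.1] at hs
      exact ⟨⟨hs.1, hs.2.trans hp.1.2⟩, fun _ => (sub_le_sub_right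
        (r.mono p (cl p hp).1 (cl p hp).2 s hs) _).trans (hp.2 ())⟩)
    (fun p hp => by
      obtain ⟨k1, -, k3, k4, k5⟩ := r.lid p (cl p hp).1 (cl p hp).2
      refine ⟨k3.le (by omega) le_rfl, fun _ => ?_, fun q hq => ?_⟩
      · rw [fderiv_sub_const]
        refine ⟨(mul_pos_iff_of_pos_left k3.pos).1 (one_pos.trans_le k4), fun v h1 h2 =>
          (mul_pos_iff_of_pos_left k3.pos).1 (lt_of_lt_of_le ?_ (k5 v h1 h2.le))⟩
        exact h2.trans_le ((le_abs_self _).trans (norm_fst_le v))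
      · rw [dist_eq_norm] at hq
        have u1 : |q.1| ≤ K2 * T := by simpa using (norm_fst_le (q - (0, p.2))).trans hq
        refine ⟨⟨u1.trans_lt t3, (Metric.closedBall_subset_closedBall' ?_).trans k1⟩,
          n0 q (u1.trans_lt t3)⟩
        have u2 : dist (xs q) (xs p) ≤ 2 * (K2 * T) :=
          (xs_dist q (0, p.2)).trans_le ((rd_le _).trans (by linarith))
        nlinarith [mul_le_mul_of_nonneg_left u1 c2.le])
    fun y hy => ⟨(hin y (yU y (cl _ hy).2)).1, sol_in0 S0 δ0 c0 y⟩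
  have sub : ol φ T ⊆ lens φ T := ol_sub le_rfl
  have sb' : ∀ p ∈ O, ContDiffAt ℝ ∞ b p := fun p hp => sb.contDiffAt (hO.mem_nhds hp)
  have P : Pull b g0 (ol φ T) (G dc0) _ := ⟨ol_open cφ T, l0.isOpen, l0.met,
    sb.mono (sub.trans lO), mb.mono_left (sub.trans lO),
    fun p hp => inj_of_det (est p (sub hp)).2.2.1.ne', fun p hp => (est p (sub hp)).2.2.2.2⟩
  have clo : ∀ p ∈ lens φ T, p.1 < T → p ∈ closure (ol φ T) := fun p hp h => by
    have ct : Tendsto (fun s : ℝ => (s, p.2)) (𝓝[>] p.1) (𝓝 p) :=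
      (Continuous.prodMk_left p.2).continuousAt.tendsto.mono_left nhdsWithin_le_nhds
    refine mem_closure_of_tendsto ct ?_
    filter_upwards [Ioo_mem_nhdsGT h, ct.eventually ((cφ ()).continuousAt.eventually_lt
      continuousAt_const (hp.2 ()))] with s h1 h2
    exact ⟨⟨hp.1.1.trans_lt h1.1, h1.2⟩, fun _ => h2⟩
  have j1 : ∀ p ∈ lens φ T, p.1 < T → Jb 1 (fderiv ℝ b) p C2 := fun p hp h =>
    jb_cl (at_fd (sb' p (lO hp))) (clo p hp h) fun x hx => hC2 _ _ _ _ _ x P hx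
      ((r.lid x (cl' x (sub hx)).1 (cl' x (sub hx)).2).2.2.1.le (by omega) le_rfl)
      (n0 _ (P.maps hx).1) (est x (sub hx)).2.1
  have cn : ∀ z, Φ (pt 0 z) < -μ / 2 → CnAt dc z := fun z hz =>
    cn_congr (((r.sm.continuous.comp P354XA.pL.continuous).continuousAt.eventually_lt
      continuousAt_const hz).mono q1) (hd z (by linarith)).1.cn
  have tg : ∀ p : R4, p.1 ∈ Icc 0 (min (T / 2) τ) → Φ p ≤ -μ → p ∈ lens φ T := fun p h1 h2 =>
    ⟨⟨h1.1, (da h1).le⟩, fun _ => sub_neg.2 (by linarith)⟩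
  have os : IsOpen (P354LC.slab δ) := isOpen_lt (by fun_prop) continuous_const
  have vc : ∀ p : R4, p.1 ∈ Icc 0 (min (T / 2) τ) → Φ p ≤ -μ → ∃ D, Lv (G dc) D ∧ b p ∈ D := by
    intro p h1 h2
    have hp := tg p h1 h2
    rcases h1.1.eq_or_lt with z | z
    · refine ⟨_, sol_lv S1 c0 (isOpen_lt (r.sm.continuous.comp P354XA.pL.continuous)
        continuous_const) cn, ?_⟩
      rw [fx p (lO hp) z.symm]
      refine ⟨by rw [← z]; simpa using δ0, ?_⟩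
      rw [← z, abs_zero, mul_zero, Metric.closedBall_zero, singleton_subset_iff]
      have : pt 0 (xs p) = p := by rw [z]; rfl
      exact lt_of_eq_of_lt (congrArg Φ this) (by linarith)
    have sg : ∀ s ∈ Icc 0 p.1, (s, p.2) ∈ lens φ T := fun s hs => ⟨⟨hs.1, hs.2.trans hp.1.2⟩,
      fun _ => (sub_le_sub_right (r.mono p (cl' p hp).1 (cl' p hp).2 s hs) _).trans_lt (hp.2 ())⟩
    have hq := sg 0 ⟨le_rfl, z.le⟩
    obtain ⟨k1, k2, k3, -, k5⟩ := r.lid _ (cl' _ hq).1 (cl' _ hq).2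
    have qs : ((0 : ℝ), p.2) ∈ P354LC.slab δ := by simpa [P354LC.slab] using δ0
    have r1 := rp_tb os S0.met
    have bq := fx _ (lO hq) rfl
    refine hv (tb g0 (0, p.2)) (tb (G dc0) (0, p.2)) Φ b p _ dc _ _ μ rfl z
      (h1.2.trans (min_le_right _ _)) (k3.n0 r0 k2) ((n0 _ qs).n0 r1 qs) (fun v w => ?_)
      (est _ hq).2.1 (fd_slice hO (lO hq) rfl ((sb' _ (lO hq)).differentiableAt (by simp)) fx)
      ((est _ hq).2.2.2.1 rfl) bq (est p hp).1 (fun x hx => ?_) r.sm (fun x u1 u2 => ?_)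
      (fun v u => k5 v ((r0.eq _ k2 v v).trans_le u)) S1 (fun x hx v => ?_) μ0 cn h2
    · rw [← r0.eq _ k2, ← r1.eq _ qs, (est _ hq).2.2.2.2, bq]
    · obtain ⟨s, hs, rfl⟩ := seg_v z.le hx
      exact ⟨sb' _ (lO (sg s hs)), j1 _ (sg s hs) (hs.2.trans_lt (da h1))⟩
    · exact (r.jb x u1 (k1 ((xs_dist x _).trans_le u2))).mono (by omega) le_rfl
    · have cs : Convex ℝ (P354LC.slab δ) := by
        simp only [P354LC.slab, abs_lt]
        exact (convex_Ioo (-δ) δ).is_linear_preimage (LinearMap.fst ℝ ℝ (ℝ × ℝ × ℝ)).isLinear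
      have u1 := (abs_le.1 (mvt (f := fun y => G dc0 y v v) (fun y hy =>
        ⟨(S0.met.smooth v v).contDiffAt (os.mem_nhds (cs.segment_subset qs hx hy)),
          fun j hj => (n0 y (cs.segment_subset qs hx hy)).bd j hj v v⟩) x
            (right_mem_segment ℝ _ _))).1
      have u2 := df x hx 0 (by omega) v v
      rw [norm_iteratedFDeriv_zero, Real.norm_eq_abs, abs_le] at u2
      simp only [Pi.sub_apply] at u2
      have u3 := mul_le_mul_of_nonneg_right (sc (by positivity) s3) (mul_self_nonneg ‖v‖)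
      rw [← r1.eq _ qs]
      nlinarith [u2.1]
  let D : Set R4 := {p | p ∈ O ∧ (∃ D, Lv (G dc) D ∧ b p ∈ D) ∧ (fderiv ℝ b p).det ≠ 0}
  have l1 := lv_max (G dc)
  have P1 : Pull b (pb b (G dc)) D (G dc) _ := ⟨isOpen_iff_mem_nhds.2 fun p hp =>
    (hO.eventually_mem hp.1).and (((sb' p hp.1).continuousAt.eventually
      (l1.isOpen.mem_nhds hp.2.1)).and ((ContinuousLinearMap.continuous_det.continuousAt.comp
        (at_fd (sb' p hp.1)).continuousAt).eventually_ne hp.2.2)), l1.isOpen, l1.met,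
    sb.mono fun _ h => h.1, fun _ h => h.2.1, fun _ h => inj_of_det h.2.2, fun _ _ _ _ => rfl⟩
  have l2 := l1.pull P1
  have mD : ∀ p : R4, p.1 ∈ Icc 0 (min (T / 2) τ) → Φ p ≤ -μ → p ∈ D := fun p h1 h2 =>
    ⟨lO (tg p h1 h2), vc p h1 h2, (est p (tg p h1 h2)).2.2.1.ne'⟩
  refine ⟨_, D, l2, fun p h1 h2 => ⟨mD p h1 h2, fun j hj v w => ?_⟩, fun y hy => ?_⟩
  · have hp := tg p h1 h2
    refine jb_cl (k := k) (f := fun x => (pb b (G dc) - g0) x v w)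
      (((l2.met.smooth v w).contDiffAt (l2.isOpen.mem_nhds (mD p h1 h2))).sub
        ((r.lv.met.smooth v w).contDiffAt (r.lv.isOpen.mem_nhds
          (r.lid p (cl' p hp).1 (cl' p hp).2).2.1))) (clo p hp (da h1)) (fun x hx => ?_) j hj
    have u := hC6 b _ _ _ x _ (p_at P hx) ((hC5 _ _ _ _ _ x P hx
      ((r'.lid x (cl' x (sub hx)).1 (cl' x (sub hx)).2).2.2.1.le (by omega) le_rfl)
      (n0' _ (P.maps hx).1) (est x (sub hx)).2.1).mono (by omega) le_rfl) os S1.met S0.met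
      (P.maps hx).1 fun j hj => df _ (P.maps hx).1 j (by omega)
    refine (Jb.congr (fun j hj => u j hj v w) ?_).mono le_rfl (le_of_eq (by ring))
    filter_upwards [P.open'.mem_nhds hx] with z hz
    simp only [Pi.sub_apply, P.eq z hz]
    rfl
  · have h0 : (pt 0 y).1 ∈ Icc 0 (min (T / 2) τ) := ⟨le_rfl, le_min (half_pos T0).le τ0.le⟩
    have k := q1 y (by linarith)
    exact in0_congr ⟨k.1.symm, k.2.symm⟩ (in0_pull P1 (mD _ h0 hy) (fun q hq => fx q hq.1)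
      ((est _ (tg _ h0 hy)).2.2.2.1 rfl) (sol_in0 S1 δ0 c0 y))

end Vale.Agent.P354S0
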